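import Mathlib

/-!
Shannon entropy of random variables on a finite weighted sample space.
-/

set_option autoImplicit false

namespace Crest.Agent.Lib.FinEnt

open Finset
open scoped Classical

variable {Ω : Type*} [Fintype Ω] {Ω' : Type*} [Fintype Ω'] {Ω'' : Type*} [Fintype Ω'']
variable {α β γ δ : Type*}

/-- Probability weights. -/
structure IsPMF (w : Ω → ℝ) : Prop where
  nonneg : ∀ ω, 0 ≤ w ω
  sum_one : ∑ ω, w ω = 1

/-- Expectation. -/
noncomputable def ex (w : Ω → ℝ) (f : Ω → ℝ) : ℝ := ∑ ω, w ω * f ω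

/-- Indicator of a proposition. -/
noncomputable def ind (P : Prop) : ℝ := if P then 1 else 0

/-- Law of a random variable. -/
noncomputable def pr (w : Ω → ℝ) (X : Ω → α) (a : α) : ℝ := ex w (fun ω => ind (X ω = a))

/-- Entropy. -/
noncomputable def ent (w : Ω → ℝ) (X : Ω → α) : ℝ :=
  - ex w (fun ω => Real.log (pr w X (X ω)))

/-- Conditional entropy. -/
noncomputable def cent (w : Ω → ℝ) (X : Ω → α) (Z : Ω → β) : ℝ :=
  ent w (fun ω => (X ω, Z ω)) - ent w Z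

/-- Conditional expectation of `f` given `Z = z`. -/
noncomputable def cex (w : Ω → ℝ) (Z : Ω → β) (f : Ω → ℝ) (z : β) : ℝ :=
  ex w (fun ω => ind (Z ω = z) * f ω) / pr w Z z

lemma ind_pos {P : Prop} (h : P) : ind P = 1 := by simp [ind, h]
lemma ind_neg {P : Prop} (h : ¬ P) : ind P = 0 := by simp [ind, h]
lemma ind_nonneg (P : Prop) : 0 ≤ ind P := by unfold ind; split_ifs <;> norm_num
lemma ind_le_one (P : Prop) : ind P ≤ 1 := by unfold ind; split_ifs <;> norm_num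
lemma ind_congr {P Q : Prop} (h : P ↔ Q) : ind P = ind Q := by rw [propext h]
lemma ind_and (P Q : Prop) : ind (P ∧ Q) = ind P * ind Q := by
  unfold ind; by_cases hP : P <;> by_cases hQ : Q <;> simp [hP, hQ]
lemma ind_mono {P Q : Prop} (h : P → Q) : ind P ≤ ind Q := by
  unfold ind; by_cases hP : P
  · simp [hP, h hP]
  · simp only [hP, if_false]; split_ifs <;> norm_num
lemma sum_ind_eq [Fintype α] (a : α) (f : α → ℝ) : ∑ b, ind (a = b) * f b = f a := by
  simp [ind]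
lemma sum_ind_mem [Fintype α] (s : Finset α) : ∑ e, ind (e ∈ s) = (s.card : ℝ) := by
  have h : ∀ e, ind (e ∈ s) = if e ∈ s then (1 : ℝ) else 0 := fun e => by
    by_cases h : e ∈ s
    · rw [ind_pos h, if_pos h]
    · rw [ind_neg h, if_neg h]
  simp only [h]
  simp

section ex
variable {w : Ω → ℝ}

lemma ex_congr {f g : Ω → ℝ} (h : ∀ ω, w ω ≠ 0 → f ω = g ω) : ex w f = ex w g := by
  unfold ex
  refine Finset.sum_congr rfl fun ω _ => ?_
  by_cases h0 : w ω = 0
  · simp [h0]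
  · rw [h ω h0]

lemma ex_mono (hw : IsPMF w) {f g : Ω → ℝ} (h : ∀ ω, w ω ≠ 0 → f ω ≤ g ω) :
    ex w f ≤ ex w g := by
  unfold ex
  refine Finset.sum_le_sum fun ω _ => ?_
  by_cases h0 : w ω = 0
  · simp [h0]
  · exact mul_le_mul_of_nonneg_left (h ω h0) (hw.nonneg ω)

lemma ex_add (f g : Ω → ℝ) : ex w (fun ω => f ω + g ω) = ex w f + ex w g := by
  simp [ex, mul_add, Finset.sum_add_distrib]

lemma ex_sub (f g : Ω → ℝ) : ex w (fun ω => f ω - g ω) = ex w f - ex w g := by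
  simp [ex, mul_sub, Finset.sum_sub_distrib]

lemma ex_neg (f : Ω → ℝ) : ex w (fun ω => - f ω) = - ex w f := by
  simp [ex]

lemma ex_const_mul (c : ℝ) (f : Ω → ℝ) : ex w (fun ω => c * f ω) = c * ex w f := by
  simp only [ex, Finset.mul_sum]; exact Finset.sum_congr rfl fun ω _ => by ring

lemma ex_mul_const (c : ℝ) (f : Ω → ℝ) : ex w (fun ω => f ω * c) = ex w f * c := by
  simp only [ex, Finset.sum_mul]; exact Finset.sum_congr rfl fun ω _ => by ring

lemma ex_const (hw : IsPMF w) (c : ℝ) : ex w (fun _ => c) = c := by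
  simp [ex, ← Finset.sum_mul, hw.sum_one]

lemma ex_zero : ex w (fun _ => 0) = 0 := by simp [ex]

lemma ex_sum {ι : Type*} (s : Finset ι) (f : ι → Ω → ℝ) :
    ex w (fun ω => ∑ i ∈ s, f i ω) = ∑ i ∈ s, ex w (f i) := by
  simp only [ex, Finset.mul_sum]; exact Finset.sum_comm

lemma ex_nonneg (hw : IsPMF w) {f : Ω → ℝ} (h : ∀ ω, w ω ≠ 0 → 0 ≤ f ω) : 0 ≤ ex w f := by
  have := ex_mono hw (f := fun _ => 0) (g := f) h
  rwa [ex_zero] at this

lemma ex_le_const (hw : IsPMF w) {f : Ω → ℝ} {c : ℝ} (h : ∀ ω, w ω ≠ 0 → f ω ≤ c) :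
    ex w f ≤ c := by
  have := ex_mono hw (f := f) (g := fun _ => c) h
  rwa [ex_const hw] at this

lemma le_ex_single (hw : IsPMF w) {f : Ω → ℝ} (h : ∀ ω, 0 ≤ f ω) (ω : Ω) :
    w ω * f ω ≤ ex w f :=
  Finset.single_le_sum (f := fun ω => w ω * f ω)
    (fun ω _ => mul_nonneg (hw.nonneg ω) (h ω)) (Finset.mem_univ ω)

end ex

section pr
variable {w : Ω → ℝ}

lemma pr_nonneg (hw : IsPMF w) (X : Ω → α) (a : α) : 0 ≤ pr w X a :=
  ex_nonneg hw fun _ _ => ind_nonneg _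

lemma pr_le_one (hw : IsPMF w) (X : Ω → α) (a : α) : pr w X a ≤ 1 :=
  ex_le_const hw fun _ _ => ind_le_one _

lemma pr_pos (hw : IsPMF w) (X : Ω → α) {ω : Ω} (h : w ω ≠ 0) : 0 < pr w X (X ω) := by
  have h1 := le_ex_single hw (f := fun ω' => ind (X ω' = X ω)) (fun _ => ind_nonneg _) ω
  rw [ind_pos rfl, mul_one] at h1
  exact lt_of_lt_of_le (lt_of_le_of_ne (hw.nonneg ω) (Ne.symm h)) h1

lemma pr_mono (hw : IsPMF w) {X : Ω → α} {Y : Ω → β} {a : α} {b : β}
    (h : ∀ ω, w ω ≠ 0 → X ω = a → Y ω = b) : pr w X a ≤ pr w Y b :=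
  ex_mono hw fun ω h0 => ind_mono (h ω h0)

lemma pr_congr {X : Ω → α} {Y : Ω → β} {a : α} {b : β}
    (h : ∀ ω, w ω ≠ 0 → (X ω = a ↔ Y ω = b)) : pr w X a = pr w Y b :=
  ex_congr fun ω h0 => ind_congr (h ω h0)

lemma sum_pr [Fintype α] (hw : IsPMF w) (X : Ω → α) : ∑ a, pr w X a = 1 := by
  unfold pr
  rw [← ex_sum]
  have : (fun ω => ∑ a, ind (X ω = a)) = fun _ => (1 : ℝ) := by
    funext ω; simp [ind]
  rw [this, ex_const hw]

/-- Expectation of a function of `X` through the law of `X`. -/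
lemma ex_comp [Fintype α] (X : Ω → α) (f : α → ℝ) :
    ex w (fun ω => f (X ω)) = ∑ a, pr w X a * f a := by
  unfold pr
  simp_rw [← ex_mul_const]
  rw [← ex_sum]
  congr 1; funext ω; rw [sum_ind_eq]

/-- Sum over the sample space of the reciprocal of the law: the number of values. -/
lemma ex_div_pr (hw : IsPMF w) (Z : Ω → β) (f : Ω → ℝ) (φ : β → ℝ) :
    ex w (fun ω => φ (Z ω) * cex w Z f (Z ω)) = ex w (fun ω => φ (Z ω) * f ω) := by
  have h1 : ∀ ω, φ (Z ω) * cex w Z f (Z ω)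
      = ∑ ω', w ω' * (ind (Z ω' = Z ω) * (φ (Z ω') * f ω' / pr w Z (Z ω'))) := by
    intro ω
    unfold cex ex
    rw [Finset.sum_div, Finset.mul_sum]
    refine Finset.sum_congr rfl fun ω' _ => ?_
    beta_reduce
    by_cases h : Z ω' = Z ω
    · rw [h]; ring
    · rw [ind_neg h]; ring
  simp_rw [h1]
  rw [ex_sum]
  conv_rhs => unfold ex
  refine Finset.sum_congr rfl fun ω' _ => ?_
  rw [ex_const_mul, ex_mul_const]
  by_cases h0 : w ω' = 0
  · simp [h0]
  · have hp := pr_pos hw Z h0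
    have : ex w (fun ω => ind (Z ω' = Z ω)) = pr w Z (Z ω') :=
      ex_congr fun ω _ => ind_congr eq_comm
    rw [this]; field_simp

lemma cex_nonneg (hw : IsPMF w) (Z : Ω → β) {f : Ω → ℝ} (h : ∀ ω, w ω ≠ 0 → 0 ≤ f ω) (z : β) :
    0 ≤ cex w Z f z :=
  div_nonneg (ex_nonneg hw fun ω h0 => mul_nonneg (ind_nonneg _) (h ω h0)) (pr_nonneg hw Z z)

lemma cex_le_one (hw : IsPMF w) (Z : Ω → β) {f : Ω → ℝ} (h : ∀ ω, w ω ≠ 0 → f ω ≤ 1) (z : β) :
    cex w Z f z ≤ 1 := by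
  unfold cex
  refine div_le_one_of_le₀ ?_ (pr_nonneg hw Z z)
  refine ex_mono hw fun ω h0 => ?_
  have := mul_le_mul_of_nonneg_left (h ω h0) (ind_nonneg (Z ω = z))
  simpa using this

lemma cex_ind_eq (X : Ω → α) (Z : Ω → β) (a : α) (z : β) :
    cex w Z (fun ω => ind (X ω = a)) z = pr w (fun ω => (X ω, Z ω)) (a, z) / pr w Z z := by
  unfold cex pr
  congr 1
  refine ex_congr fun ω _ => ?_
  rw [← ind_and]; exact ind_congr (by simp [and_comm])

end pr

section entropy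
variable {w : Ω → ℝ}

lemma ent_nonneg (hw : IsPMF w) (X : Ω → α) : 0 ≤ ent w X := by
  unfold ent
  rw [← ex_neg]
  exact ex_nonneg hw fun ω _ =>
    neg_nonneg.2 (Real.log_nonpos (pr_nonneg hw X _) (pr_le_one hw X _))

/-- A variable determined by another one has smaller entropy. -/
lemma ent_le_of_det (hw : IsPMF w) {X : Ω → α} {Y : Ω → β}
    (h : ∀ ω ω', w ω ≠ 0 → w ω' ≠ 0 → Y ω' = Y ω → X ω' = X ω) : ent w X ≤ ent w Y := by
  unfold ent
  refine neg_le_neg (ex_mono hw fun ω h0 => ?_)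
  exact Real.log_le_log (pr_pos hw Y h0) (pr_mono hw fun ω' h0' => h ω ω' h0 h0')

lemma ent_congr_det {X : Ω → α} {Y : Ω → β}
    (h : ∀ ω ω', w ω ≠ 0 → w ω' ≠ 0 → (X ω' = X ω ↔ Y ω' = Y ω)) : ent w X = ent w Y := by
  unfold ent
  congr 1
  refine ex_congr fun ω h0 => ?_
  rw [pr_congr fun ω' h0' => h ω ω' h0 h0']

lemma cent_eq (hw : IsPMF w) (X : Ω → α) (Z : Ω → β) :
    cent w X Z = - ex w (fun ω =>
      Real.log (pr w (fun ω => (X ω, Z ω)) (X ω, Z ω) / pr w Z (Z ω))) := by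
  unfold cent ent
  rw [neg_sub_neg, ← neg_sub, ← ex_sub]
  congr 1
  refine ex_congr fun ω h0 => ?_
  rw [Real.log_div (pr_pos hw (fun ω => (X ω, Z ω)) h0).ne' (pr_pos hw Z h0).ne']

/-- Gibbs' inequality for conditional entropy. -/
lemma cent_le_of_kernel [Fintype α] (hw : IsPMF w) (X : Ω → α) (Z : Ω → β) (r : α → β → ℝ)
    (hr0 : ∀ a z, 0 ≤ r a z) (hr1 : ∀ z, ∑ a, r a z ≤ 1)
    (hpos : ∀ ω, w ω ≠ 0 → 0 < r (X ω) (Z ω)) :
    cent w X Z ≤ - ex w (fun ω => Real.log (r (X ω) (Z ω))) := by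
  rw [cent_eq hw]
  set P := pr w (fun ω => (X ω, Z ω)) with hP
  have key : ex w (fun ω => r (X ω) (Z ω) * pr w Z (Z ω) / P (X ω, Z ω)) ≤ 1 := by
    have h1 : ∀ ω, w ω ≠ 0 → r (X ω) (Z ω) * pr w Z (Z ω) / P (X ω, Z ω)
        = ∑ a, (r a (Z ω) * pr w Z (Z ω) / P (a, Z ω)) * ind (X ω = a) := by
      intro ω _
      rw [← sum_ind_eq (X ω) (fun a => r a (Z ω) * pr w Z (Z ω) / P (a, Z ω))]
      exact Finset.sum_congr rfl fun a _ => mul_comm _ _
    rw [ex_congr h1, ex_sum]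
    have h2 : ∀ a, ex w (fun ω => (r a (Z ω) * pr w Z (Z ω) / P (a, Z ω)) * ind (X ω = a))
        ≤ ex w (fun ω => r a (Z ω)) := by
      intro a
      rw [← ex_div_pr hw Z (fun ω => ind (X ω = a))
        (fun z => r a z * pr w Z z / P (a, z))]
      refine ex_mono hw fun ω h0 => ?_
      rw [cex_ind_eq, ← hP]
      have hz := pr_pos hw Z h0
      by_cases hP0 : P (a, Z ω) = 0
      · simp [hP0, hr0]
      · apply le_of_eq; field_simp
    refine (Finset.sum_le_sum fun a _ => h2 a).trans ?_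
    rw [← ex_sum]
    exact ex_le_const hw fun ω _ => hr1 _
  have h3 : ex w (fun ω => Real.log (r (X ω) (Z ω)) - Real.log (P (X ω, Z ω) / pr w Z (Z ω)))
      ≤ ex w (fun ω => r (X ω) (Z ω) * pr w Z (Z ω) / P (X ω, Z ω) - 1) := by
    refine ex_mono hw fun ω h0 => ?_
    have hz := pr_pos hw Z h0
    have hp : 0 < P (X ω, Z ω) := pr_pos hw (fun ω => (X ω, Z ω)) h0
    have hr := hpos ω h0
    rw [← Real.log_div hr.ne' (div_pos hp hz).ne']
    have : r (X ω) (Z ω) / (P (X ω, Z ω) / pr w Z (Z ω))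
        = r (X ω) (Z ω) * pr w Z (Z ω) / P (X ω, Z ω) := by field_simp
    rw [this]
    exact Real.log_le_sub_one_of_pos (by positivity)
  rw [ex_sub, ex_sub, ex_const hw] at h3
  linarith

lemma ent_const (hw : IsPMF w) (c : β) : ent w (fun _ => c) = 0 := by
  unfold ent pr
  simp only [ind_pos, ex_const hw, Real.log_one, neg_zero]

lemma cent_const (hw : IsPMF w) (X : Ω → α) (c : β) : cent w X (fun _ => c) = ent w X := by
  unfold cent
  rw [ent_const hw, sub_zero]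
  exact ent_congr_det fun _ _ _ _ => by simp

/-- Gibbs' inequality. -/
lemma ent_le_of_kernel [Fintype α] (hw : IsPMF w) (X : Ω → α) (r : α → ℝ)
    (hr0 : ∀ a, 0 ≤ r a) (hr1 : ∑ a, r a ≤ 1) (hpos : ∀ ω, w ω ≠ 0 → 0 < r (X ω)) :
    ent w X ≤ - ex w (fun ω => Real.log (r (X ω))) := by
  rw [← cent_const hw X ()]
  exact cent_le_of_kernel hw X (fun _ => ()) (fun a _ => r a) (fun a _ => hr0 a)
    (fun _ => hr1) hpos

/-- Conditioning on more reduces entropy (finite value type). -/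
lemma cent_le_of_fun_aux [Fintype α] (hw : IsPMF w) (X : Ω → α) (Z : Ω → β) (f : β → γ) :
    cent w X Z ≤ cent w X (fun ω => f (Z ω)) := by
  rw [cent_eq hw X (fun ω => f (Z ω))]
  refine cent_le_of_kernel hw X Z
    (fun a z => pr w (fun ω => (X ω, f (Z ω))) (a, f z) / pr w (fun ω => f (Z ω)) (f z))
    (fun a z => div_nonneg (pr_nonneg hw _ _) (pr_nonneg hw _ _)) (fun z => ?_) (fun ω h0 => ?_)
  · rw [← Finset.sum_div]
    refine div_le_one_of_le₀ (le_of_eq ?_) (pr_nonneg hw _ _)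
    unfold pr
    rw [← ex_sum]
    congr 1; funext ω
    simp only [Prod.mk.injEq, ind_and]
    exact sum_ind_eq (X ω) (fun _ => ind (f (Z ω) = f z))
  · exact div_pos (pr_pos hw (fun ω => (X ω, f (Z ω))) h0) (pr_pos hw (fun ω => f (Z ω)) h0)

lemma cent_congr_det {X : Ω → α} {X' : Ω → γ} {Z : Ω → β} {Z' : Ω → δ}
    (hZ : ∀ ω ω', w ω ≠ 0 → w ω' ≠ 0 → (Z ω' = Z ω ↔ Z' ω' = Z' ω))
    (hX : ∀ ω ω', w ω ≠ 0 → w ω' ≠ 0 → Z ω' = Z ω → (X ω' = X ω ↔ X' ω' = X' ω)) :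
    cent w X Z = cent w X' Z' := by
  unfold cent
  rw [ent_congr_det hZ]
  congr 1
  refine ent_congr_det fun ω ω' h h' => ?_
  simp only [Prod.mk.injEq]
  have h1 := hZ ω ω' h h'
  have h2 := hX ω ω' h h'
  tauto

/-- Conditioning on more reduces entropy. -/
lemma cent_le_of_det (hw : IsPMF w) (X : Ω → α) {Z : Ω → β} {Z' : Ω → γ}
    (h : ∀ ω ω', w ω ≠ 0 → w ω' ≠ 0 → Z ω' = Z ω → Z' ω' = Z' ω) :
    cent w X Z ≤ cent w X Z' := by
  let X' : Ω → Finset Ω := fun ω => Finset.univ.filter fun ω' => X ω' = X ω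
  have hX' : ∀ ω ω', X ω' = X ω ↔ X' ω' = X' ω := by
    intro ω ω'
    constructor
    · intro h; simp only [X', h]
    · intro h
      have : ω' ∈ X' ω' := by simp [X']
      rw [h] at this; simpa [X'] using this
  have e1 : cent w X Z = cent w X' (fun ω => (Z ω, Z' ω)) :=
    cent_congr_det (fun ω ω' h0 h0' => by
      simp only [Prod.mk.injEq]; have := h ω ω' h0 h0'; tauto) (fun ω ω' _ _ _ => hX' ω ω')
  have e2 : cent w X Z' = cent w X' (fun ω => (Z ω, Z' ω).2) :=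
    cent_congr_det (fun _ _ _ _ => Iff.rfl) (fun ω ω' _ _ _ => hX' ω ω')
  rw [e1, e2]
  exact cent_le_of_fun_aux hw X' (fun ω => (Z ω, Z' ω)) Prod.snd

lemma cent_le_ent (hw : IsPMF w) (X : Ω → α) (Z : Ω → β) : cent w X Z ≤ ent w X := by
  rw [← cent_const hw X ()]
  exact cent_le_of_det hw X fun _ _ _ _ _ => rfl

lemma cent_nonneg (hw : IsPMF w) (X : Ω → α) (Z : Ω → β) : 0 ≤ cent w X Z :=
  sub_nonneg.2 (ent_le_of_det hw fun _ _ _ _ h => (Prod.ext_iff.1 h).2)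

/-- Chain rule. -/
lemma cent_pair (X : Ω → α) (Y : Ω → β) (Z : Ω → γ) :
    cent w (fun ω => (X ω, Y ω)) Z = cent w X (fun ω => (Y ω, Z ω)) + cent w Y Z := by
  unfold cent
  have : ent w (fun ω => ((X ω, Y ω), Z ω)) = ent w (fun ω => (X ω, Y ω, Z ω)) :=
    ent_congr_det fun _ _ _ _ => by simp [and_assoc]
  rw [this]; ring

/-- Symmetry of conditional mutual information. -/
lemma cent_symm (X : Ω → α) (Y : Ω → β) (Z : Ω → γ) :
    cent w X Z - cent w X (fun ω => (Y ω, Z ω)) = cent w Y Z - cent w Y (fun ω => (X ω, Z ω)) := by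
  unfold cent
  have : ent w (fun ω => (X ω, Y ω, Z ω)) = ent w (fun ω => (Y ω, X ω, Z ω)) :=
    ent_congr_det fun _ _ _ _ => by simp only [Prod.mk.injEq]; tauto
  rw [this]; ring

/-- Submodularity, in the form used for common information. -/
lemma ent_pair_le (hw : IsPMF w) (A : Ω → α) (B : Ω → β) (W : Ω → γ) :
    ent w (fun ω => (A ω, B ω)) ≤
      ent w (fun ω => (A ω, W ω)) + ent w (fun ω => (B ω, W ω)) - ent w W := by
  have h1 : ent w (fun ω => (A ω, B ω)) ≤ ent w (fun ω => (A ω, B ω, W ω)) :=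
    ent_le_of_det hw fun _ _ _ _ h => by simp only [Prod.mk.injEq] at h ⊢; tauto
  have h2 : cent w A (fun ω => (B ω, W ω)) ≤ cent w A W :=
    cent_le_of_det hw A fun _ _ _ _ h => (Prod.ext_iff.1 h).2
  unfold cent at h2
  linarith

end entropy

section MP

/-- `π` pushes the weights `w'` forward to `w`. -/
def MP (w' : Ω' → ℝ) (w : Ω → ℝ) (π : Ω' → Ω) : Prop :=
  ∀ F : Ω → ℝ, ex w' (fun ω' => F (π ω')) = ex w F

variable {w : Ω → ℝ} {w' : Ω' → ℝ} {w'' : Ω'' → ℝ} {π : Ω' → Ω}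

lemma MP.comp {π' : Ω'' → Ω'} (h : MP w' w π) (h' : MP w'' w' π') :
    MP w'' w (fun ω => π (π' ω)) := fun F => by
  rw [← h F, ← h' (fun ω' => F (π ω'))]

lemma MP.pr_eq (h : MP w' w π) (X : Ω → α) (a : α) :
    pr w' (fun ω' => X (π ω')) a = pr w X a := h (fun ω => ind (X ω = a))

lemma MP.ent_eq (h : MP w' w π) (X : Ω → α) : ent w' (fun ω' => X (π ω')) = ent w X := by
  unfold ent
  simp_rw [h.pr_eq]
  rw [h (fun ω => Real.log (pr w X (X ω)))]

lemma MP.cent_eq (h : MP w' w π) (X : Ω → α) (Z : Ω → β) :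
    cent w' (fun ω' => X (π ω')) (fun ω' => Z (π ω')) = cent w X Z := by
  unfold cent
  rw [h.ent_eq Z, h.ent_eq (fun ω => (X ω, Z ω))]

lemma MP.cex_eq (h : MP w' w π) (Z : Ω → β) (f : Ω → ℝ) (z : β) :
    cex w' (fun ω' => Z (π ω')) (fun ω' => f (π ω')) z = cex w Z f z := by
  unfold cex
  rw [h.pr_eq, h (fun ω => ind (Z ω = z) * f ω)]

lemma MP.ne_zero (h : MP w' w π) (hw' : IsPMF w') {ω' : Ω'} (h0 : w' ω' ≠ 0) :
    w (π ω') ≠ 0 := by
  have h1 := pr_pos hw' π h0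
  have h2 := h.pr_eq id (π ω')
  simp only [id] at h2
  rw [h2] at h1
  intro h3
  have : pr w id (π ω') = 0 := by
    unfold pr ex
    refine Finset.sum_eq_zero fun ω _ => ?_
    by_cases h4 : ω = π ω'
    · rw [h4, h3, zero_mul]
    · simp only [id]; rw [ind_neg h4, mul_zero]
  linarith

lemma MP.of_equiv (e : Ω' ≃ Ω) (h : ∀ ω', w' ω' = w (e ω')) : MP w' w e := fun F => by
  unfold ex
  exact Fintype.sum_equiv e _ _ fun ω' => by rw [h]

end MP

section prod

/-- Product weights. -/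
def prodW (w : Ω → ℝ) (w' : Ω' → ℝ) : Ω × Ω' → ℝ := fun p => w p.1 * w' p.2

variable {w : Ω → ℝ} {w' : Ω' → ℝ}

lemma ex_prodW (F : Ω × Ω' → ℝ) :
    ex (prodW w w') F = ex w (fun ω => ex w' (fun ω' => F (ω, ω'))) := by
  unfold ex prodW
  rw [Fintype.sum_prod_type]
  refine Finset.sum_congr rfl fun ω _ => ?_
  rw [Finset.mul_sum]
  exact Finset.sum_congr rfl fun ω' _ => by ring

lemma ex_comm (F : Ω → Ω' → ℝ) :
    ex w (fun ω => ex w' (fun ω' => F ω ω')) = ex w' (fun ω' => ex w (fun ω => F ω ω')) := by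
  unfold ex
  simp only [Finset.mul_sum]
  rw [Finset.sum_comm]
  exact Finset.sum_congr rfl fun _ _ => Finset.sum_congr rfl fun _ _ => by ring

lemma isPMF_prodW (hw : IsPMF w) (hw' : IsPMF w') : IsPMF (prodW w w') where
  nonneg p := mul_nonneg (hw.nonneg _) (hw'.nonneg _)
  sum_one := by
    unfold prodW
    rw [Fintype.sum_prod_type]
    simp [← Finset.mul_sum, hw'.sum_one, hw.sum_one]

lemma mp_prod_snd (hw : IsPMF w) : MP (prodW w w') w' Prod.snd := fun F => by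
  rw [ex_prodW]; exact ex_const hw (ex w' F)

lemma mp_prod_fst (hw' : IsPMF w') : MP (prodW w w') w Prod.fst := fun F => by
  rw [ex_prodW]; simp only [ex_const hw']

lemma MP.prod_right {w'' : Ω'' → ℝ} {π : Ω'' → Ω'} (h : MP w'' w' π) :
    MP (prodW w w'') (prodW w w') (fun p => (p.1, π p.2)) := fun F => by
  rw [ex_prodW, ex_prodW]
  congr 1; funext ω
  exact h (fun ω' => F (ω, ω'))

/-- Uniform weights. -/
noncomputable def unif (Ω : Type*) [Fintype Ω] : Ω → ℝ := fun _ => 1 / (Fintype.card Ω : ℝ)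

lemma isPMF_unif [Nonempty Ω] : IsPMF (unif Ω) where
  nonneg _ := by unfold unif; positivity
  sum_one := by
    unfold unif
    have : (Fintype.card Ω : ℝ) ≠ 0 := by exact_mod_cast Fintype.card_ne_zero
    simp [this]

lemma ex_unif_equiv (e : Ω ≃ Ω) (F : Ω → ℝ) : ex (unif Ω) (fun ω => F (e ω)) = ex (unif Ω) F :=
  MP.of_equiv (w' := unif Ω) (w := unif Ω) e (fun _ => rfl) F

end prod

section coupling

/-- Two copies, conditionally independent given `Z`. -/
noncomputable def coup (w : Ω → ℝ) (Z : Ω → β) : Ω × Ω → ℝ :=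
  fun p => w p.1 * (w p.2 * (ind (Z p.2 = Z p.1) / pr w Z (Z p.1)))

variable {w : Ω → ℝ}

lemma ex_coup (Z : Ω → β) (F : Ω × Ω → ℝ) :
    ex (coup w Z) F = ex w (fun ω => cex w Z (fun ω' => F (ω, ω')) (Z ω)) := by
  unfold cex ex coup
  rw [Fintype.sum_prod_type]
  refine Finset.sum_congr rfl fun ω _ => ?_
  beta_reduce
  rw [Finset.sum_div, Finset.mul_sum]
  exact Finset.sum_congr rfl fun ω' _ => by ring

lemma coup_symm (Z : Ω → β) (p : Ω × Ω) : coup w Z p = coup w Z p.swap := by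
  unfold coup
  by_cases h : Z p.2 = Z p.1
  · simp only [Prod.fst_swap, Prod.snd_swap, h]; ring
  · simp only [Prod.fst_swap, Prod.snd_swap]; rw [ind_neg h, ind_neg (Ne.symm h)]; ring

lemma coup_eq_of_ne_zero (Z : Ω → β) {p : Ω × Ω} (h : coup w Z p ≠ 0) : Z p.2 = Z p.1 := by
  by_contra h1
  apply h; unfold coup; rw [ind_neg h1]; ring

lemma cex_const (hw : IsPMF w) (Z : Ω → β) (c : ℝ) {ω : Ω} (h0 : w ω ≠ 0) :
    cex w Z (fun _ => c) (Z ω) = c := by
  unfold cex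
  rw [ex_mul_const]
  have := pr_pos hw Z h0
  change pr w Z (Z ω) * c / _ = c
  field_simp

lemma cex_const_mul (Z : Ω → β) (c : ℝ) (f : Ω → ℝ) (z : β) :
    cex w Z (fun ω => c * f ω) z = c * cex w Z f z := by
  unfold cex
  rw [← mul_div_assoc, ← ex_const_mul]
  congr 2; funext ω; ring

lemma mp_coup_fst (hw : IsPMF w) (Z : Ω → β) : MP (coup w Z) w Prod.fst := fun F => by
  rw [ex_coup]
  exact ex_congr fun ω h0 => cex_const hw Z (F ω) h0

lemma mp_coup_swap (Z : Ω → β) : MP (coup w Z) (coup w Z) Prod.swap :=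
  MP.of_equiv (Equiv.prodComm Ω Ω) (coup_symm Z)

lemma mp_coup_snd (hw : IsPMF w) (Z : Ω → β) : MP (coup w Z) w Prod.snd :=
  (mp_coup_fst hw Z).comp (mp_coup_swap Z)

lemma isPMF_coup (hw : IsPMF w) (Z : Ω → β) : IsPMF (coup w Z) where
  nonneg p := mul_nonneg (hw.nonneg _) (mul_nonneg (hw.nonneg _)
    (div_nonneg (ind_nonneg _) (pr_nonneg hw _ _)))
  sum_one := by
    have := mp_coup_fst hw Z (fun _ => 1)
    rw [ex_const hw] at this
    simpa [ex] using this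

/-- Conditional independence in the coupling. -/
lemma ex_coup_mul (hw : IsPMF w) (Z : Ω → β) (f g : Ω → ℝ) (φ : β → ℝ) :
    ex (coup w Z) (fun p => φ (Z p.1) * (f p.1 * g p.2))
      = ex w (fun ω => φ (Z ω) * cex w Z g (Z ω) * cex w Z f (Z ω)) := by
  rw [ex_coup, ex_div_pr hw Z f (fun z => φ z * cex w Z g z)]
  congr 1; funext ω
  simp only
  rw [cex_const_mul, cex_const_mul]; ring

lemma cex_coup_mul (hw : IsPMF w) (Z : Ω → β) (f g : Ω → ℝ) {ω : Ω} (h0 : w ω ≠ 0) :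
    cex (coup w Z) (fun p => Z p.1) (fun p => f p.1 * g p.2) (Z ω)
      = cex w Z f (Z ω) * cex w Z g (Z ω) := by
  have hp := pr_pos hw Z h0
  conv_lhs => unfold cex
  rw [(mp_coup_fst hw Z).pr_eq, ex_coup_mul hw Z f g (fun z => ind (z = Z ω))]
  have : ex w (fun ω' => ind (Z ω' = Z ω) * cex w Z g (Z ω') * cex w Z f (Z ω'))
      = ex w (fun ω' => ind (Z ω' = Z ω) * (cex w Z f (Z ω) * cex w Z g (Z ω))) := by
    congr 1; funext ω'
    by_cases h : Z ω' = Z ω
    · rw [h]; ring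
    · rw [ind_neg h]; ring
  rw [this, ex_mul_const]
  change pr w Z (Z ω) * _ / _ = _
  field_simp

lemma ent_coup (hw : IsPMF w) (Z : Ω → β) (X : Ω → α) (Y : Ω → γ) :
    ent (coup w Z) (fun p => ((X p.1, Y p.2), Z p.1))
      = ent w (fun ω => (X ω, Z ω)) + ent w (fun ω => (Y ω, Z ω)) - ent w Z := by
  have hc := isPMF_coup hw Z
  have hpr : ∀ p : Ω × Ω, coup w Z p ≠ 0 →
      Real.log (pr (coup w Z) (fun p => ((X p.1, Y p.2), Z p.1)) ((X p.1, Y p.2), Z p.1))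
        = Real.log (pr w (fun ω => (X ω, Z ω)) (X p.1, Z p.1))
          + Real.log (pr w (fun ω => (Y ω, Z ω)) (Y p.2, Z p.2)) - Real.log (pr w Z (Z p.1)) := by
    intro p hp
    have h1 : w p.1 ≠ 0 := (mp_coup_fst hw Z).ne_zero hc hp
    have h2 : w p.2 ≠ 0 := (mp_coup_snd hw Z).ne_zero hc hp
    have hZ := coup_eq_of_ne_zero Z hp
    have hz := pr_pos hw Z h1
    have ha := pr_pos hw (fun ω => (X ω, Z ω)) h1
    have hb := pr_pos hw (fun ω => (Y ω, Z ω)) h2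
    have e1 := cex_ind_eq (w := coup w Z) (fun q => (X q.1, Y q.2)) (fun q => Z q.1)
      (X p.1, Y p.2) (Z p.1)
    have e2 := cex_coup_mul hw Z (fun ω => ind (X ω = X p.1)) (fun ω => ind (Y ω = Y p.2)) h1
    have e3 : (fun q : Ω × Ω => ind ((X q.1, Y q.2) = (X p.1, Y p.2)))
        = fun q => ind (X q.1 = X p.1) * ind (Y q.2 = Y p.2) := by
      funext q; rw [← ind_and]; exact ind_congr (by simp)
    rw [e3, e2, cex_ind_eq, cex_ind_eq, (mp_coup_fst hw Z).pr_eq] at e1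
    have e4 : pr (coup w Z) (fun p => ((X p.1, Y p.2), Z p.1)) ((X p.1, Y p.2), Z p.1)
        = pr w (fun ω => (X ω, Z ω)) (X p.1, Z p.1)
          * pr w (fun ω => (Y ω, Z ω)) (Y p.2, Z p.2) / pr w Z (Z p.1) := by
      rw [hZ]
      field_simp at e1 ⊢
      linarith
    rw [e4, Real.log_div (mul_pos ha hb).ne' hz.ne', Real.log_mul ha.ne' hb.ne']
  unfold ent
  rw [ex_congr hpr, ex_sub, ex_add,
    mp_coup_fst hw Z (fun ω => Real.log (pr w (fun ω => (X ω, Z ω)) (X ω, Z ω))),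
    mp_coup_snd hw Z (fun ω => Real.log (pr w (fun ω => (Y ω, Z ω)) (Y ω, Z ω))),
    mp_coup_fst hw Z (fun ω => Real.log (pr w Z (Z ω)))]
  ring

lemma cent_coup (hw : IsPMF w) (Z : Ω → β) (X : Ω → α) (Y : Ω → γ) :
    cent (coup w Z) (fun p => (X p.1, Y p.2)) (fun p => Z p.1) = cent w X Z + cent w Y Z := by
  unfold cent
  rw [ent_coup hw, (mp_coup_fst hw Z).ent_eq Z]; ring

/-- Given the first copy, the second copy only sees `Z`. -/
lemma cent_coup_snd (hw : IsPMF w) (Z : Ω → β) (Y : Ω → γ) :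
    cent (coup w Z) (fun p => Y p.2) (fun p => p.1) = cent w Y Z := by
  have h1 := ent_coup hw Z id Y
  have h2 : ent w (fun ω => (id ω, Z ω)) = ent w id :=
    ent_congr_det fun ω ω' _ _ => by
      simp only [id, Prod.mk.injEq]; constructor
      · exact fun h => h.1
      · intro h; rw [h]; simp
  have h3 : ent (coup w Z) (fun p => ((id p.1, Y p.2), Z p.1))
      = ent (coup w Z) (fun p => (Y p.2, p.1)) :=
    ent_congr_det fun p p' _ _ => by
      simp only [id, Prod.mk.injEq]; constructor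
      · exact fun h => ⟨h.1.2, h.1.1⟩
      · intro h; rw [h.1, h.2]; simp
  have h4 := (mp_coup_fst hw Z).ent_eq id
  simp only [id] at h4
  unfold cent
  rw [← h3, h1, h2, h4]; ring

end coupling

end Crest.Agent.Lib.FinEnt
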